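import Vale.Agent.P204.Full.Flat

/-!
P204 F2: frames near the identity and their coefficient functions.
-/

namespace Vale.Agent.P204.Full

open MeasureTheory
open scoped ContDiff

/-- a smooth field of matrices near the identity, equal to it outside a compact set -/
structure GoodFrame (L : E4 → Matrix (Fin 4) (Fin 4) ℝ) : Prop where
  smooth : ∀ a b, ContDiff ℝ ∞ fun y => L y a b
  near : ∀ y a b, |L y a b - (1 : Matrix (Fin 4) (Fin 4) ℝ) a b| ≤ 1 / 100
  cpt : ∀ a b, HasCompactSupport fun y => L y a b - (1 : Matrix (Fin 4) (Fin 4) ℝ) a b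

/-- the coefficients `L Lᵀ` of the frozen Laplacian -/
def fmet (L : E4 → Matrix (Fin 4) (Fin 4) ℝ) (y : E4) : Matrix (Fin 4) (Fin 4) ℝ :=
  L y * (L y).transpose

/-- the quadratic form `(L⁻¹)ᵀ L⁻¹` in the exponent of the frozen Gaussian -/
noncomputable def finv (L : E4 → Matrix (Fin 4) (Fin 4) ℝ) (y : E4) : Matrix (Fin 4) (Fin 4) ℝ :=
  ((L y)⁻¹).transpose * (L y)⁻¹

/-- the density factor of the frozen Gaussian -/
noncomputable def fden (L : E4 → Matrix (Fin 4) (Fin 4) ℝ) (y : E4) : ℝ := |((L y)⁻¹).det|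

/-- value of the quadratic form in the exponent -/
noncomputable def fquad (L : E4 → Matrix (Fin 4) (Fin 4) ℝ) (y z : E4) : ℝ :=
  ∑ a, ∑ b, finv L y a b * z a * z b

namespace Frozen

lemma norm_toLp_sq (v : Fin 4 → ℝ) : ‖(WithLp.toLp 2 v : E4)‖ ^ 2 = ∑ a, v a ^ 2 := by
  rw [EuclideanSpace.real_norm_sq_eq]

lemma abs_coord_le (z : E4) (a : Fin 4) : |z a| ≤ ‖z‖ := by
  have h := PiLp.norm_apply_le z a
  simpa [Real.norm_eq_abs] using h

/-- a matrix with entries at most `1/100` has operator norm at most `1/25` -/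
lemma small_mulVec_sq {E : Matrix (Fin 4) (Fin 4) ℝ} (hE : ∀ a b, |E a b| ≤ 1 / 100)
    (v : Fin 4 → ℝ) : ∑ a, (E.mulVec v a) ^ 2 ≤ (1 / 625) * ∑ a, v a ^ 2 := by
  have h : ∀ a, (E.mulVec v a) ^ 2 ≤ (1 / 2500) * ∑ b, v b ^ 2 := by
    intro a
    calc (E.mulVec v a) ^ 2 = (∑ b, E a b * v b) ^ 2 := by simp [Matrix.mulVec, dotProduct]
      _ ≤ (∑ b, E a b ^ 2) * ∑ b, v b ^ 2 := Finset.sum_mul_sq_le_sq_mul_sq _ _ _
      _ ≤ (∑ _b : Fin 4, (1 / 100 : ℝ) ^ 2) * ∑ b, v b ^ 2 := by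
          apply mul_le_mul_of_nonneg_right _ (Finset.sum_nonneg fun b _ => sq_nonneg _)
          exact Finset.sum_le_sum fun b _ => by
            rw [← sq_abs]; exact pow_le_pow_left₀ (abs_nonneg _) (hE a b) 2
      _ = (1 / 2500) * ∑ b, v b ^ 2 := by norm_num
  calc ∑ a, (E.mulVec v a) ^ 2 ≤ ∑ _a : Fin 4, (1 / 2500) * ∑ b, v b ^ 2 :=
        Finset.sum_le_sum fun a _ => h a
    _ = _ := by simp; ring

/-- two-sided bound for a matrix near the identity -/
lemma near_mulVec_norm {A : Matrix (Fin 4) (Fin 4) ℝ}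
    (hA : ∀ a b, |A a b - (1 : Matrix (Fin 4) (Fin 4) ℝ) a b| ≤ 1 / 100) (v : Fin 4 → ℝ) :
    (24 / 25) * ‖(WithLp.toLp 2 v : E4)‖ ≤ ‖(WithLp.toLp 2 (A.mulVec v) : E4)‖ ∧
      ‖(WithLp.toLp 2 (A.mulVec v) : E4)‖ ≤ (26 / 25) * ‖(WithLp.toLp 2 v : E4)‖ := by
  set E := A - 1 with hE
  have hv : (WithLp.toLp 2 (A.mulVec v) : E4) = WithLp.toLp 2 v + WithLp.toLp 2 (E.mulVec v) := by
    rw [← WithLp.toLp_add, hE, Matrix.sub_mulVec, Matrix.one_mulVec]
    congr 1; abel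
  have hsmall : ‖(WithLp.toLp 2 (E.mulVec v) : E4)‖ ≤ (1 / 25) * ‖(WithLp.toLp 2 v : E4)‖ := by
    refine (sq_le_sq₀ (norm_nonneg _) (by positivity)).1 ?_
    rw [mul_pow, norm_toLp_sq, norm_toLp_sq]
    calc ∑ a, (E.mulVec v a) ^ 2 ≤ (1 / 625) * ∑ a, v a ^ 2 :=
          small_mulVec_sq (fun a b => by simpa [hE] using hA a b) v
      _ = (1 / 25 : ℝ) ^ 2 * ∑ a, v a ^ 2 := by ring
  rw [hv]
  constructor
  · have := norm_sub_le_norm_add (WithLp.toLp 2 v : E4) (WithLp.toLp 2 (E.mulVec v))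
    linarith
  · have := norm_add_le (WithLp.toLp 2 v : E4) (WithLp.toLp 2 (E.mulVec v))
    linarith

lemma near_det_ne {A : Matrix (Fin 4) (Fin 4) ℝ}
    (hA : ∀ a b, |A a b - (1 : Matrix (Fin 4) (Fin 4) ℝ) a b| ≤ 1 / 100) : A.det ≠ 0 := by
  intro h0
  obtain ⟨v, hv, hv0⟩ := Matrix.exists_mulVec_eq_zero_iff.2 h0
  have h := (near_mulVec_norm hA v).1
  rw [hv0] at h
  have : ‖(WithLp.toLp 2 v : E4)‖ = 0 := by
    have h' : ‖(WithLp.toLp 2 (0 : Fin 4 → ℝ) : E4)‖ = 0 := by simp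
    rw [h'] at h
    exact le_antisymm (by linarith) (norm_nonneg _)
  exact hv (by simpa using norm_eq_zero.1 this)

variable {L : E4 → Matrix (Fin 4) (Fin 4) ℝ}

lemma det_ne (hL : GoodFrame L) (y : E4) : (L y).det ≠ 0 := near_det_ne (hL.near y)

lemma isUnit_det (hL : GoodFrame L) (y : E4) : IsUnit (L y).det := (det_ne hL y).isUnit

lemma mul_inv (hL : GoodFrame L) (y : E4) : L y * (L y)⁻¹ = 1 :=
  Matrix.mul_nonsing_inv _ (isUnit_det hL y)

lemma inv_mul (hL : GoodFrame L) (y : E4) : (L y)⁻¹ * L y = 1 :=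
  Matrix.nonsing_inv_mul _ (isUnit_det hL y)

lemma fden_eq (y : E4) : fden L y = |(L y).det|⁻¹ := by
  rw [fden, Matrix.det_nonsing_inv, Ring.inverse_eq_inv', abs_inv]

lemma fden_pos (hL : GoodFrame L) (y : E4) : 0 < fden L y := by
  rw [fden_eq]; exact inv_pos.2 (abs_pos.2 (det_ne hL y))

lemma finv_symm (y : E4) (a b : Fin 4) : finv L y a b = finv L y b a := by
  have h : (finv L y).transpose = finv L y := by
    simp [finv, Matrix.transpose_mul]
  exact (congrFun (congrFun h a) b).symm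

lemma fmet_symm (y : E4) (a b : Fin 4) : fmet L y a b = fmet L y b a := by
  have h : (fmet L y).transpose = fmet L y := by
    simp [fmet, Matrix.transpose_mul]
  exact (congrFun (congrFun h a) b).symm

lemma finv_mul_fmet (hL : GoodFrame L) (y : E4) : finv L y * fmet L y = 1 := by
  rw [finv, fmet]
  calc ((L y)⁻¹).transpose * (L y)⁻¹ * (L y * (L y).transpose)
      = ((L y)⁻¹).transpose * ((L y)⁻¹ * L y) * (L y).transpose := by simp only [Matrix.mul_assoc]
    _ = 1 := by rw [inv_mul hL y, Matrix.mul_one, ← Matrix.transpose_mul, mul_inv hL y,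
        Matrix.transpose_one]

lemma fquad_eq (y z : E4) :
    fquad L y z = ‖(WithLp.toLp 2 ((L y)⁻¹.mulVec z.ofLp) : E4)‖ ^ 2 := by
  rw [norm_toLp_sq]
  simp only [fquad, finv, Matrix.mul_apply, Matrix.transpose_apply, Matrix.mulVec, dotProduct,
    Fin.sum_univ_four]
  ring

lemma fgauss_eq (s : ℝ) (y z : E4) :
    fgauss (L y) s z =
      fden L y * (Real.exp (-fquad L y z / (4 * s ^ 2)) / (16 * Real.pi ^ 2 * s ^ 4)) := by
  rw [fgauss, gauss, fquad_eq, fden, mul_comm]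

lemma fquad_bounds (hL : GoodFrame L) (y z : E4) :
    (4 / 5) * ‖z‖ ^ 2 ≤ fquad L y z ∧ fquad L y z ≤ (5 / 4) * ‖z‖ ^ 2 := by
  rw [fquad_eq]
  set v := (L y)⁻¹.mulVec z.ofLp
  have hz : (WithLp.toLp 2 ((L y).mulVec v) : E4) = z := by
    simp [v, Matrix.mulVec_mulVec, mul_inv hL y]
  have h := near_mulVec_norm (hL.near y) v
  rw [hz] at h
  have hn := norm_nonneg (WithLp.toLp 2 v : E4)
  constructor
  · nlinarith [h.1, h.2, norm_nonneg z]
  · nlinarith [h.1, h.2, norm_nonneg z]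

lemma contDiff_det {F : E4 → Matrix (Fin 4) (Fin 4) ℝ}
    (hF : ∀ a b, ContDiff ℝ ∞ fun y => F y a b) : ContDiff ℝ ∞ fun y => (F y).det := by
  simp only [Matrix.det_apply']
  exact ContDiff.sum fun σ _ => contDiff_const.mul (contDiff_prod fun i _ => hF _ _)

lemma contDiff_inv (hL : GoodFrame L) (a b : Fin 4) :
    ContDiff ℝ ∞ fun y => (L y)⁻¹ a b := by
  have h : (fun y => (L y)⁻¹ a b) = fun y => (L y).det⁻¹ * (L y).adjugate a b := by
    funext y
    rw [Matrix.inv_def, Matrix.smul_apply, Ring.inverse_eq_inv', smul_eq_mul]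
  rw [h]
  refine ((contDiff_det hL.smooth).inv (det_ne hL)).mul ?_
  simp only [Matrix.adjugate_apply]
  refine contDiff_det fun c d => ?_
  by_cases hc : c = b
  · subst hc; simp only [Matrix.updateRow_self]; exact contDiff_const
  · simp only [Matrix.updateRow_ne hc]; exact hL.smooth c d

lemma contDiff_finv (hL : GoodFrame L) (a b : Fin 4) :
    ContDiff ℝ ∞ fun y => finv L y a b := by
  simp only [finv, Matrix.mul_apply, Matrix.transpose_apply]
  exact ContDiff.sum fun c _ => (contDiff_inv hL c a).mul (contDiff_inv hL c b)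

lemma contDiff_fmet (hL : GoodFrame L) (a b : Fin 4) :
    ContDiff ℝ ∞ fun y => fmet L y a b := by
  simp only [fmet, Matrix.mul_apply, Matrix.transpose_apply]
  exact ContDiff.sum fun c _ => (hL.smooth a c).mul (hL.smooth b c)

lemma contDiff_fden (hL : GoodFrame L) : ContDiff ℝ ∞ fun y => fden L y := by
  have h : (fun y => fden L y) = fun y => |(L y).det|⁻¹ := funext fun y => fden_eq y
  rw [h]
  exact ((contDiff_det hL.smooth).abs (det_ne hL)).inv fun y => abs_ne_zero.2 (det_ne hL y)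

/-- a compact set outside which the frame is the identity -/
lemma exists_compact_frame (hL : GoodFrame L) :
    ∃ K : Set E4, IsCompact K ∧ ∀ y, y ∉ K → L y = 1 := by
  refine ⟨⋃ a, ⋃ b, tsupport fun y => L y a b - (1 : Matrix (Fin 4) (Fin 4) ℝ) a b,
    isCompact_iUnion fun a => isCompact_iUnion fun b => hL.cpt a b, fun y hy => ?_⟩
  simp only [Set.mem_iUnion, not_exists] at hy
  ext a b
  have := image_eq_zero_of_notMem_tsupport (hy a b)
  linarith

/-- a smooth function of the frame is bounded together with its derivative -/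
lemma bdd_of_frame (hL : GoodFrame L) (Φ : Matrix (Fin 4) (Fin 4) ℝ → ℝ)
    (hΦ : ContDiff ℝ ∞ fun y => Φ (L y)) :
    ∃ C, 0 ≤ C ∧ ∀ y c, |Φ (L y)| ≤ C ∧ |pd (fun y => Φ (L y)) c y| ≤ C := by
  obtain ⟨K, hK, hK1⟩ := exists_compact_frame hL
  set f := fun y => Φ (L y) - Φ 1 with hf
  have hfs : HasCompactSupport f :=
    HasCompactSupport.intro hK fun y hy => by simp [hf, hK1 y hy]
  have hfc : ContDiff ℝ ∞ f := hΦ.sub contDiff_const
  obtain ⟨C0, hC0⟩ := hfs.exists_bound_of_continuous hfc.continuous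
  obtain ⟨C1, hC1⟩ := (hfs.fderiv ℝ).exists_bound_of_continuous
    (hfc.continuous_fderiv (by simp))
  refine ⟨max (C0 + |Φ 1|) C1, 
    le_max_of_le_left (by linarith [abs_nonneg (Φ 1), (norm_nonneg _).trans (hC0 0)]),
    fun y c => ⟨?_, ?_⟩⟩
  · have h1 := hC0 y
    rw [Real.norm_eq_abs] at h1
    have h2 := abs_sub_abs_le_abs_sub (Φ (L y)) (Φ 1)
    have : |f y| = |Φ (L y) - Φ 1| := rfl
    exact le_max_of_le_left (by linarith)
  · have h1 := hC1 y
    have h2 : fderiv ℝ (fun y => Φ (L y)) y = fderiv ℝ f y := by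
      rw [hf]; exact (fderiv_sub_const (Φ 1)).symm
    refine le_max_of_le_right ?_
    rw [pd, h2, ← Real.norm_eq_abs]
    refine le_trans (ContinuousLinearMap.le_opNorm _ _) ?_
    simp [ev4, h1]

lemma exists_finv_bound (hL : GoodFrame L) :
    ∃ C, 0 ≤ C ∧ ∀ y a b c,
      |finv L y a b| ≤ C ∧ |pd (fun y => finv L y a b) c y| ≤ C := by
  choose C hC0 hC using fun p : Fin 4 × Fin 4 =>
    bdd_of_frame hL (fun A => (A⁻¹.transpose * A⁻¹) p.1 p.2) (contDiff_finv hL p.1 p.2)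
  refine ⟨∑ p, C p, Finset.sum_nonneg fun p _ => hC0 p, fun y a b c => ?_⟩
  have h : C (a, b) ≤ ∑ p, C p :=
    Finset.single_le_sum (fun p _ => hC0 p) (Finset.mem_univ (a, b))
  exact ⟨(hC (a, b) y c).1.trans h, (hC (a, b) y c).2.trans h⟩

lemma exists_fden_bound (hL : GoodFrame L) :
    ∃ C, 0 < C ∧ ∀ y c, |fden L y| ≤ C ∧ |pd (fun y => fden L y) c y| ≤ C * fden L y ∧
      1 ≤ C * fden L y := by
  obtain ⟨C1, hC1, h1⟩ := bdd_of_frame hL (fun A => |A⁻¹.det|) (contDiff_fden hL)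
  obtain ⟨C2, hC2, h2⟩ := bdd_of_frame hL (fun A => |A⁻¹.det|⁻¹)
    ((contDiff_fden hL).inv fun y => (fden_pos hL y).ne')
  refine ⟨(C1 + 1) * (C2 + 1), by positivity, fun y c => ?_⟩
  have hd := fden_pos hL y
  have e2 : (fden L y)⁻¹ ≤ C2 := by
    have := (h2 y c).1
    rwa [show |((L y)⁻¹).det| = fden L y from rfl, abs_of_pos (inv_pos.2 hd)] at this
  have e3 : 1 ≤ C2 * fden L y := by
    calc (1 : ℝ) = (fden L y)⁻¹ * fden L y := (inv_mul_cancel₀ hd.ne').symm
      _ ≤ _ := mul_le_mul_of_nonneg_right e2 hd.le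
  have e1 := (h1 y c).1
  refine ⟨?_, ?_, ?_⟩
  · exact e1.trans (by nlinarith)
  · refine ((h1 y c).2).trans ?_
    nlinarith [mul_nonneg hC1 hd.le]
  · nlinarith [mul_nonneg hC1 hd.le, mul_nonneg hC2 hd.le, mul_nonneg (mul_nonneg hC1 hC2) hd.le]

end Frozen

end Vale.Agent.P204.Full
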