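import Vale.Agent.P204.Full.Frozen.Basic

/-!
P204 F2: derivative formulas, heat identity and mass of the frozen Gaussian.
-/

namespace Vale.Agent.P204.Full

open MeasureTheory
open scoped ContDiff

namespace Frozen

variable {L : E4 → Matrix (Fin 4) (Fin 4) ℝ}

/-- the vector `Q z` -/
noncomputable def qvec (L : E4 → Matrix (Fin 4) (Fin 4) ℝ) (y z : E4) (a : Fin 4) : ℝ :=
  ∑ b, finv L y a b * z b

/-- coefficient of the first derivative in `z` -/
noncomputable def c1 (L : E4 → Matrix (Fin 4) (Fin 4) ℝ) (s : ℝ) (y z : E4) (a : Fin 4) : ℝ :=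
  -(qvec L y z a) / (2 * s ^ 2)

/-- coefficient of the second derivative in `z` -/
noncomputable def c2 (L : E4 → Matrix (Fin 4) (Fin 4) ℝ) (s : ℝ) (y z : E4) (a b : Fin 4) : ℝ :=
  qvec L y z a * qvec L y z b / (4 * s ^ 4) - finv L y a b / (2 * s ^ 2)

/-- logarithmic derivative in `y` -/
noncomputable def e0 (L : E4 → Matrix (Fin 4) (Fin 4) ℝ) (s : ℝ) (y z : E4) (c : Fin 4) : ℝ :=
  pd (fun y => fden L y) c y / fden L y -
    (∑ a, ∑ b, pd (fun y => finv L y a b) c y * z a * z b) / (4 * s ^ 2)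

lemma ev4_apply (a b : Fin 4) : ev4 a b = if b = a then 1 else 0 := by
  simp [ev4]

lemma hasFDerivAt_coord (z : E4) (a : Fin 4) :
    HasFDerivAt (fun z : E4 => z a) (EuclideanSpace.proj (𝕜 := ℝ) a) z :=
  (EuclideanSpace.proj (𝕜 := ℝ) a).hasFDerivAt

lemma pd_coord (a b : Fin 4) (z : E4) :
    pd (fun z : E4 => z a) b z = if a = b then 1 else 0 := by
  rw [pd, (hasFDerivAt_coord z a).fderiv]
  simp [ev4]

lemma contDiff_coord (a : Fin 4) : ContDiff ℝ ∞ fun z : E4 => z a :=
  (EuclideanSpace.proj (𝕜 := ℝ) a).contDiff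

lemma pd_qvec (y z : E4) (a b : Fin 4) :
    pd (fun z => qvec L y z a) b z = finv L y a b := by
  have hc : ∀ i, DifferentiableAt ℝ (fun z : E4 => z i) z := fun i =>
    (hasFDerivAt_coord z i).differentiableAt
  simp only [pd, qvec]
  rw [fderiv_fun_sum fun i _ => (hc i).const_mul _, sum_apply]
  simp only [fderiv_const_mul (hc _), smul_apply, smul_eq_mul]
  have h : ∀ i, fderiv ℝ (fun z : E4 => z i) z (ev4 b) = if i = b then 1 else 0 := fun i =>
    pd_coord i b z
  simp [h]

lemma hasFDerivAt_fquad (y z : E4) :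
    HasFDerivAt (fun z => fquad L y z)
      (∑ a, (2 * qvec L y z a) • EuclideanSpace.proj (𝕜 := ℝ) a) z := by
  have h := HasFDerivAt.fun_sum (u := Finset.univ) fun a _ => HasFDerivAt.fun_sum (u := Finset.univ)
    fun b _ => ((hasFDerivAt_coord z a).const_mul (finv L y a b)).mul (hasFDerivAt_coord z b)
  refine h.congr_fderiv ?_
  ext v
  simp only [sum_apply, add_apply,
    smul_apply, smul_eq_mul, qvec, Finset.sum_add_distrib]
  rw [Finset.sum_comm, ← Finset.sum_add_distrib]
  refine Finset.sum_congr rfl fun a _ => ?_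
  rw [Finset.mul_sum, Finset.sum_mul, ← Finset.sum_add_distrib]
  refine Finset.sum_congr rfl fun b _ => ?_
  rw [finv_symm y b a]
  ring

lemma hasFDerivAt_fgauss (s : ℝ) (y z : E4) :
    HasFDerivAt (fun z => fgauss (L y) s z)
      (fgauss (L y) s z • ∑ a, c1 L s y z a • EuclideanSpace.proj (𝕜 := ℝ) a) z := by
  have h0 := (((hasFDerivAt_fquad (L := L) y z).neg.mul_const (4 * s ^ 2)⁻¹).exp.mul_const
    (16 * Real.pi ^ 2 * s ^ 4)⁻¹).const_mul (fden L y)
  have h1 : HasFDerivAt (fun z => fden L y * (Real.exp (-fquad L y z * (4 * s ^ 2)⁻¹) *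
      (16 * Real.pi ^ 2 * s ^ 4)⁻¹)) _ z := h0
  have hfun : (fun z => fgauss (L y) s z) = fun z => fden L y *
      (Real.exp (-fquad L y z * (4 * s ^ 2)⁻¹) * (16 * Real.pi ^ 2 * s ^ 4)⁻¹) := by
    funext z; rw [fgauss_eq]; ring
  rw [hfun]
  refine h1.congr_fderiv ?_
  ext v
  simp only [sum_apply, smul_apply,
    neg_apply, smul_eq_mul, c1, Finset.mul_sum, ← Finset.sum_neg_distrib,
    fgauss_eq, Pi.neg_apply]
  refine Finset.sum_congr rfl fun a _ => ?_
  ring_nf

lemma pd_fgauss (s : ℝ) (y z : E4) (a : Fin 4) :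
    pd (fun z => fgauss (L y) s z) a z = c1 L s y z a * fgauss (L y) s z := by
  rw [pd, (hasFDerivAt_fgauss s y z).fderiv]
  simp only [smul_apply, sum_apply, smul_eq_mul]
  simp [ev4, mul_comm]

lemma pd2_fgauss (s : ℝ) (y z : E4) (a b : Fin 4) :
    pd (fun z => pd (fun z => fgauss (L y) s z) a z) b z
      = c2 L s y z a b * fgauss (L y) s z := by
  simp only [pd_fgauss]
  have hq : DifferentiableAt ℝ (fun z => qvec L y z a) z := by
    simp only [qvec]
    exact DifferentiableAt.fun_sum fun i _ => (hasFDerivAt_coord z i).differentiableAt.const_mul _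
  have hc : HasFDerivAt (fun z => c1 L s y z a)
      (-(2 * s ^ 2)⁻¹ • fderiv ℝ (fun z => qvec L y z a) z) z := by
    refine (hq.hasFDerivAt.neg.mul_const (2 * s ^ 2)⁻¹).congr_fderiv ?_
    ext v
    simp only [smul_apply, neg_apply, smul_eq_mul]
    ring
  rw [pd, (hc.fun_mul (hasFDerivAt_fgauss s y z)).fderiv]
  simp only [add_apply, smul_apply,
    sum_apply, smul_eq_mul]
  have h : fderiv ℝ (fun z => qvec L y z a) z (ev4 b) = finv L y a b := pd_qvec y z a b
  rw [h]
  simp [ev4, c1, c2]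
  ring

lemma contDiff_fquad (hL : GoodFrame L) :
    ContDiff ℝ ∞ fun p : E4 × E4 => fquad L p.1 p.2 := by
  simp only [fquad]
  exact ContDiff.sum fun a _ => ContDiff.sum fun b _ =>
    (((contDiff_finv hL a b).comp contDiff_fst).mul ((contDiff_coord a).comp contDiff_snd)).mul
      ((contDiff_coord b).comp contDiff_snd)

lemma contDiff_fgauss (hL : GoodFrame L) (s : ℝ) :
    ContDiff ℝ ∞ fun p : E4 × E4 => fgauss (L p.1) s p.2 := by
  have h1 : ContDiff ℝ ∞ fun p : E4 × E4 => fden L p.1 :=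
    (contDiff_fden hL).comp (contDiff_fst (E := E4) (F := E4))
  have h2 : ContDiff ℝ ∞ fun p : E4 × E4 => Real.exp (-fquad L p.1 p.2 * (4 * s ^ 2)⁻¹) :=
    Real.contDiff_exp.comp ((contDiff_fquad hL).neg.mul contDiff_const)
  have hfun : ∀ p : E4 × E4, fgauss (L p.1) s p.2 = fden L p.1 *
      Real.exp (-fquad L p.1 p.2 * (4 * s ^ 2)⁻¹) * (16 * Real.pi ^ 2 * s ^ 4)⁻¹ := fun p => by
    rw [fgauss_eq, div_eq_mul_inv, div_eq_mul_inv, ← mul_assoc]
  rw [funext hfun]
  exact (h1.mul h2).mul contDiff_const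

lemma contDiff_fgauss_left (hL : GoodFrame L) (s : ℝ) (z : E4) :
    ContDiff ℝ ∞ fun y => fgauss (L y) s z :=
  ContDiff.comp (g := fun p : E4 × E4 => fgauss (L p.1) s p.2) (f := fun y : E4 => (y, z))
    (contDiff_fgauss hL s) (contDiff_id.prodMk contDiff_const)

lemma pdy_fgauss (hL : GoodFrame L) (s : ℝ) (y z : E4) (c : Fin 4) :
    pd (fun y => fgauss (L y) s z) c y = e0 L s y z c * fgauss (L y) s z := by
  have hD := ((contDiff_fden hL).differentiable (by simp) y).hasFDerivAt
  have hQ : ∀ a b, DifferentiableAt ℝ (fun y => finv L y a b) y := fun a b =>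
    (contDiff_finv hL a b).differentiable (by simp) y
  have hq : HasFDerivAt (fun y => fquad L y z)
      (∑ a, ∑ b, (z a * z b) • fderiv ℝ (fun y => finv L y a b) y) y := by
    refine HasFDerivAt.fun_sum fun a _ => HasFDerivAt.fun_sum fun b _ => ?_
    refine (((hQ a b).hasFDerivAt.mul_const (z a)).mul_const (z b)).congr_fderiv ?_
    ext v
    simp only [smul_apply, smul_eq_mul]
    ring
  have h := hD.fun_mul ((hq.fun_neg.mul_const (4 * s ^ 2)⁻¹).exp.mul_const
    (16 * Real.pi ^ 2 * s ^ 4)⁻¹)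
  have hfun : (fun y => fgauss (L y) s z) = fun y => fden L y *
      (Real.exp (-fquad L y z * (4 * s ^ 2)⁻¹) * (16 * Real.pi ^ 2 * s ^ 4)⁻¹) := by
    funext y; rw [fgauss_eq]; ring
  have hd := (fden_pos hL y).ne'
  rw [pd, hfun, h.fderiv]
  simp only [add_apply, smul_apply, neg_apply, sum_apply, smul_eq_mul, e0, pd, fgauss_eq]
  have hsum : ∑ a, ∑ b, z a * z b * fderiv ℝ (fun y => finv L y a b) y (ev4 c)
      = ∑ a, ∑ b, fderiv ℝ (fun y => finv L y a b) y (ev4 c) * z a * z b :=
    Finset.sum_congr rfl fun a _ => Finset.sum_congr rfl fun b _ => by ring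
  rw [hsum, sub_mul, ← mul_assoc (_ / fden L y), div_mul_cancel₀ _ hd]
  ring

lemma sum_fmet_qq (hL : GoodFrame L) (y z : E4) :
    ∑ a, ∑ b, fmet L y a b * (qvec L y z a * qvec L y z b) = fquad L y z := by
  have hI := finv_mul_fmet hL y
  have h : ∀ b, ∑ a, fmet L y a b * qvec L y z a = z b := by
    intro b
    calc ∑ a, fmet L y a b * qvec L y z a
        = ∑ a, ∑ k, (finv L y k a * fmet L y a b) * z k := by
          simp only [qvec, Finset.mul_sum]
          refine Finset.sum_congr rfl fun a _ => Finset.sum_congr rfl fun k _ => ?_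
          rw [finv_symm y a k]; ring
      _ = ∑ k, (finv L y * fmet L y) k b * z k := by
          rw [Finset.sum_comm]
          simp only [Matrix.mul_apply, Finset.sum_mul]
      _ = z b := by simp [hI, Matrix.one_apply]
  rw [Finset.sum_comm]
  simp_rw [← mul_assoc, ← Finset.sum_mul, h]
  simp only [fquad, qvec, Finset.mul_sum]
  refine Finset.sum_congr rfl fun a _ => Finset.sum_congr rfl fun b _ => ?_
  ring

lemma sum_fmet_finv (hL : GoodFrame L) (y : E4) :
    ∑ a, ∑ b, fmet L y a b * finv L y a b = 4 := by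
  have h : ∀ b, ∑ a, fmet L y a b * finv L y a b = 1 := by
    intro b
    have h1 : (finv L y * fmet L y) b b = 1 := by simp [finv_mul_fmet hL y]
    rw [← h1, Matrix.mul_apply]
    exact Finset.sum_congr rfl fun a _ => by rw [finv_symm y a b]; ring
  rw [Finset.sum_comm]; simp [h]

/-- heat identity -/
lemma hasDerivAt_fgauss (hL : GoodFrame L) {s : ℝ} (hs : 0 < s) (y z : E4) :
    HasDerivAt (fun s => fgauss (L y) s z)
      (2 * s * ∑ a, ∑ b, fmet L y a b * pd (fun z => pd (fun z => fgauss (L y) s z) a z) b z)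
      s := by
  have hval : ∑ a, ∑ b, fmet L y a b * pd (fun z => pd (fun z => fgauss (L y) s z) a z) b z
      = (fquad L y z / (4 * s ^ 4) - 4 / (2 * s ^ 2)) * fgauss (L y) s z := by
    simp only [pd2_fgauss, c2, sub_mul, mul_sub, Finset.sum_sub_distrib, div_eq_mul_inv]
    congr 1
    · calc ∑ a, ∑ b, fmet L y a b *
            (qvec L y z a * qvec L y z b * (4 * s ^ 4)⁻¹ * fgauss (L y) s z)
          = (∑ a, ∑ b, fmet L y a b * (qvec L y z a * qvec L y z b)) *
              ((4 * s ^ 4)⁻¹ * fgauss (L y) s z) := by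
            simp only [Finset.sum_mul]
            exact Finset.sum_congr rfl fun a _ => Finset.sum_congr rfl fun b _ => by ring
        _ = _ := by rw [sum_fmet_qq hL]; ring
    · calc ∑ a, ∑ b, fmet L y a b * (finv L y a b * (2 * s ^ 2)⁻¹ * fgauss (L y) s z)
          = (∑ a, ∑ b, fmet L y a b * finv L y a b) *
              ((2 * s ^ 2)⁻¹ * fgauss (L y) s z) := by
            simp only [Finset.sum_mul]
            exact Finset.sum_congr rfl fun a _ => Finset.sum_congr rfl fun b _ => by ring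
        _ = _ := by rw [sum_fmet_finv hL]; ring
  rw [hval]
  have hfun : (fun s => fgauss (L y) s z) = fun s => fden L y *
      (Real.exp (-fquad L y z / (4 * s ^ 2)) / (16 * Real.pi ^ 2 * s ^ 4)) := by
    funext s; rw [fgauss_eq]
  rw [hfun, fgauss_eq]
  have h := (((hasDerivAt_const s (-fquad L y z)).fun_div
    (((hasDerivAt_id s).pow 2).const_mul (4 : ℝ)) (by simp; positivity)).exp.fun_div
    (((hasDerivAt_id s).pow 4).const_mul (16 * Real.pi ^ 2)) (by simp; positivity)).const_mul
      (fden L y)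
  refine h.congr_deriv ?_
  have hπ := Real.pi_pos.ne'
  simp only [id_eq, Pi.pow_apply]
  field_simp
  ring

/-- unit mass -/
lemma integral_fgauss (hL : GoodFrame L) {s : ℝ} (hs : 0 < s) (y : E4) :
    ∫ z, fgauss (L y) s z = 1 := by
  have hg : ∫ z : E4, gauss s z = 1 := by
    have h := GaussianFourier.integral_rexp_neg_mul_sq_norm (V := E4)
      (b := 1 / (4 * s ^ 2)) (by positivity)
    have he : (fun z : E4 => gauss s z) = fun z =>
        (16 * Real.pi ^ 2 * s ^ 4)⁻¹ * Real.exp (-(1 / (4 * s ^ 2)) * ‖z‖ ^ 2) := by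
      funext z; rw [gauss]; ring_nf
    rw [he, integral_const_mul, h]
    simp [finrank_euclideanSpace]
    norm_num [Real.rpow_two]
    field_simp
    ring
  set T : E4 →ₗ[ℝ] E4 := Matrix.toEuclideanLin (L y)⁻¹ with hT
  have hdet : LinearMap.det T = ((L y)⁻¹).det := by
    simp [hT]
  have hne : ((L y)⁻¹).det ≠ 0 := by
    rw [Matrix.det_nonsing_inv, Ring.inverse_eq_inv']; exact inv_ne_zero (det_ne hL y)
  have hc : Continuous T := T.continuous_of_finiteDimensional
  have hm := MeasureTheory.Measure.map_linearMap_addHaar_eq_smul_addHaar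
    (μ := (volume : Measure E4)) (f := T) (by rw [hdet]; exact hne)
  have hgc : Continuous fun z : E4 => gauss s z := by unfold gauss; fun_prop
  have key := integral_map (φ := T) hc.aemeasurable
    (hgc.aestronglyMeasurable (μ := Measure.map T volume))
  rw [hm, integral_smul_measure, hdet, hg, ENNReal.toReal_ofReal (abs_nonneg _)] at key
  have hf : (fun z => fgauss (L y) s z) = fun z => gauss s (T z) * |((L y)⁻¹).det| := rfl
  rw [hf, integral_mul_const, ← key, abs_inv, smul_eq_mul, mul_one,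
    inv_mul_cancel₀ (abs_ne_zero.2 hne)]

end Frozen

end Vale.Agent.P204.Full
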